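import Vale.Agent.P227.Gen.MainA

/-!
# P227 / Gen : coordinates adapted to the reflections and the symmetry
-/

open MeasureTheory Set
open scoped ENNReal Matrix

namespace Vale.Agent.P227.Gen

open Vale.Agent.P227.T1

theorem exists_basis3 {m : ℕ} (v w : Fin m → EuclideanSpace ℝ (Fin (m + 3)))
    (hvw : ∀ i j, inner ℝ (v i) (w j) = if i = j then (1 : ℝ) else 0) :
    ∃ b : Module.Basis (Fin (m + 3)) ℝ (EuclideanSpace ℝ (Fin (m + 3))),
      (∀ i : Fin m, b (Fin.castAdd 3 i) = v i) ∧
      (∀ i : Fin m, ∀ x, b.repr x (Fin.castAdd 3 i) = inner ℝ x (w i)) := by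
  classical
  let Φ : EuclideanSpace ℝ (Fin (m + 3)) →ₗ[ℝ] (Fin m → ℝ) :=
    LinearMap.pi fun i => (innerₛₗ ℝ (w i))
  have hΦ : ∀ x i, Φ x i = inner ℝ (w i) x := fun x i => rfl
  have hsurj : Function.Surjective Φ := by
    intro y
    refine ⟨∑ i, y i • v i, ?_⟩
    funext j
    rw [hΦ, inner_sum]
    simp only [inner_smul_right]
    rw [Finset.sum_eq_single j]
    · rw [real_inner_comm, hvw]; simp
    · intro i _ hij
      rw [real_inner_comm, hvw, if_neg hij, mul_zero]
    · simp
  have hdim : Module.finrank ℝ (LinearMap.ker Φ) = 3 := by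
    have h1 := LinearMap.finrank_range_add_finrank_ker Φ
    rw [LinearMap.range_eq_top.2 hsurj, finrank_top] at h1
    simp at h1
    omega
  let c : Module.Basis (Fin 3) ℝ (LinearMap.ker Φ) := Module.finBasisOfFinrankEq ℝ _ hdim
  let f : Fin (m + 3) → EuclideanSpace ℝ (Fin (m + 3)) :=
    Fin.addCases v (fun j => (c j : EuclideanSpace ℝ (Fin (m + 3))))
  have hfl : ∀ i, f (Fin.castAdd 3 i) = v i := fun i => by simp [f]
  have hfr : ∀ j, f (Fin.natAdd m j) = c j := fun j => by simp [f]
  have hck : ∀ j k, inner ℝ (w k) (c j : EuclideanSpace ℝ (Fin (m + 3))) = 0 := by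
    intro j k
    have : Φ (c j : EuclideanSpace ℝ (Fin (m + 3))) = 0 := (c j).2
    rw [← hΦ, this]; rfl
  have hli : LinearIndependent ℝ f := by
    rw [Fintype.linearIndependent_iff]
    intro g hg
    rw [Fin.sum_univ_add] at hg
    simp only [hfl, hfr] at hg
    have ha : ∀ k : Fin m, g (Fin.castAdd 3 k) = 0 := by
      intro k
      have h2 := congrArg (fun z => inner ℝ (w k) z) hg
      simp only [inner_add_right, inner_sum, inner_smul_right, inner_zero_right, hck, mul_zero,
        Finset.sum_const_zero, add_zero] at h2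
      rw [Finset.sum_eq_single k] at h2
      · rw [real_inner_comm, hvw] at h2
        simpa using h2
      · intro i _ hik
        rw [real_inner_comm, hvw, if_neg hik, mul_zero]
      · simp
    simp only [ha, zero_smul, Finset.sum_const_zero, zero_add] at hg
    have hc' : ∑ j : Fin 3, g (Fin.natAdd m j) • c j = 0 := by
      apply Subtype.ext
      push_cast
      exact hg
    have hd := Fintype.linearIndependent_iff.1 c.linearIndependent _ hc'
    intro i
    refine Fin.addCases (fun i => ha i) (fun j => hd j) i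
  let b := basisOfLinearIndependentOfCardEqFinrank hli (by simp)
  have hb : ∀ i, b i = f i := fun i => by simp [b]
  refine ⟨b, fun i => by rw [hb, hfl], ?_⟩
  intro i x
  have hcoord : b.coord (Fin.castAdd 3 i) = (innerₛₗ ℝ (w i)) := by
    apply b.ext
    intro j
    rw [Module.Basis.coord_apply, Module.Basis.repr_self]
    refine Fin.addCases (fun j => ?_) (fun j => ?_) j
    · rw [hb, hfl]
      show _ = inner ℝ (w i) (v j)
      rw [real_inner_comm, hvw, Finsupp.single_apply]
      by_cases hij : j = i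
      · simp [hij]
      · rw [if_neg hij, if_neg]
        intro h
        exact hij (Fin.castAdd_injective m 3 h)
    · rw [hb, hfr]
      show _ = inner ℝ (w i) (c j : EuclideanSpace ℝ (Fin (m + 3)))
      rw [hck, Finsupp.single_apply, if_neg]
      intro h
      have := congrArg Fin.val h
      simp at this
      omega
  have := congrArg (fun φ => φ x) hcoord
  simp only [Module.Basis.coord_apply] at this
  rw [this]
  show inner ℝ (w i) x = inner ℝ x (w i)
  exact real_inner_comm _ _

/-- an eigenvalue of a linear map preserving a body has modulus at most one -/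
theorem abs_eigen_le {V : Type*} [NormedAddCommGroup V] [NormedSpace ℝ V] {K : Set V}
    (hK : IsCompact K) (h0 : (0 : V) ∈ interior K) (A : V →ₗ[ℝ] V) (aK : ∀ x ∈ K, A x ∈ K)
    {v : V} (hv : v ≠ 0) {c : ℝ} (hc : A v = c • v) : |c| ≤ 1 := by
  by_contra hlt
  push Not at hlt
  obtain ⟨R, hR⟩ := hK.isBounded.exists_norm_le
  obtain ⟨ε, hε, hball⟩ := Metric.mem_nhds_iff.1 (mem_interior_iff_mem_nhds.1 h0)
  set s : ℝ := ε / 2 / ‖v‖ with hs
  have hvn : 0 < ‖v‖ := norm_pos_iff.2 hv
  have hs0 : 0 < s := by positivity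
  have hmem : s • v ∈ K := by
    apply hball
    rw [mem_ball_zero_iff, norm_smul, Real.norm_of_nonneg hs0.le, hs, div_mul_cancel₀ _ hvn.ne']
    linarith
  have hpow : ∀ n : ℕ, (c ^ n * s) • v ∈ K := by
    intro n
    induction n with
    | zero => simpa using hmem
    | succ n ih =>
      have := aK _ ih
      rw [map_smul, hc, smul_smul] at this
      rw [pow_succ]
      convert this using 2
      ring
  obtain ⟨n, hn⟩ := pow_unbounded_of_one_lt (R / (s * ‖v‖)) hlt
  have h1 := hR _ (hpow n)
  rw [norm_smul, norm_mul, norm_pow, Real.norm_eq_abs, Real.norm_of_nonneg hs0.le] at h1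
  rw [div_lt_iff₀ (by positivity)] at hn
  linarith [mul_assoc (|c| ^ n) s ‖v‖]

section coords

variable {m : ℕ} {V : Type*} [AddCommGroup V] [Module ℝ V] (b : Module.Basis (Fin (m + 3)) ℝ V)

/-- the matrix of `A` on the last three coordinates -/
noncomputable def mat3 (A : V →ₗ[ℝ] V) : (Fin 3 → ℝ) →ₗ[ℝ] (Fin 3 → ℝ) where
  toFun z := fun k => b.repr (A (∑ j, z j • b (Fin.natAdd m j))) (Fin.natAdd m k)
  map_add' z z' := by
    funext k
    simp only [Pi.add_apply, add_smul, Finset.sum_add_distrib, map_add, Finsupp.add_apply]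
  map_smul' c z := by
    funext k
    simp only [Pi.smul_apply, smul_eq_mul, RingHom.id_apply, mul_smul, ← Finset.smul_sum, map_smul,
      Finsupp.smul_apply]

theorem mat3_apply (A : V →ₗ[ℝ] V) (z : Fin 3 → ℝ) (k : Fin 3) :
    mat3 b A z k = b.repr (A (∑ j, z j • b (Fin.natAdd m j))) (Fin.natAdd m k) := rfl

variable {b}

theorem repr_castAdd {A : V →ₗ[ℝ] V} {c : Fin m → ℝ}
    (hA : ∀ i, A (b (Fin.castAdd 3 i)) = c i • b (Fin.castAdd 3 i))
    (hF : ∀ j i, b.repr (A (b (Fin.natAdd m j))) (Fin.castAdd 3 i) = 0) (x : V) (i : Fin m) :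
    b.repr (A x) (Fin.castAdd 3 i) = c i * b.repr x (Fin.castAdd 3 i) := by
  conv_lhs => rw [← b.sum_repr x]
  rw [Fin.sum_univ_add]
  simp only [map_add, map_sum, map_smul, hA, Finsupp.add_apply, Finsupp.coe_finsetSum,
    Finset.sum_apply, Finsupp.smul_apply, hF, smul_zero, Finset.sum_const_zero, add_zero,
    b.repr_self, smul_eq_mul]
  rw [Finset.sum_eq_single i]
  · simp
    ring
  · intro j _ hj
    rw [Finsupp.single_apply, if_neg]
    · simp
    · intro h
      exact hj (Fin.castAdd_injective m 3 h)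
  · simp

theorem repr_natAdd {A : V →ₗ[ℝ] V} {c : Fin m → ℝ}
    (hA : ∀ i, A (b (Fin.castAdd 3 i)) = c i • b (Fin.castAdd 3 i)) (x : V) (k : Fin 3) :
    b.repr (A x) (Fin.natAdd m k) = mat3 b A (fun j => b.repr x (Fin.natAdd m j)) k := by
  rw [mat3_apply]
  conv_lhs => rw [← b.sum_repr x]
  rw [Fin.sum_univ_add]
  simp only [map_add, map_sum, map_smul, hA, Finsupp.add_apply, Finsupp.coe_finsetSum,
    Finset.sum_apply, Finsupp.smul_apply, b.repr_self, smul_eq_mul]
  rw [add_eq_right]
  apply Finset.sum_eq_zero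
  intro i _
  rw [Finsupp.single_apply, if_neg]
  · simp
  · intro h
    have := congrArg Fin.val h
    simp at this
    omega

theorem mat3_comp {A B : V →ₗ[ℝ] V} (hAB : ∀ x, A (B x) = x) {c : Fin m → ℝ}
    (hA : ∀ i, A (b (Fin.castAdd 3 i)) = c i • b (Fin.castAdd 3 i)) (z : Fin 3 → ℝ) :
    mat3 b A (mat3 b B z) = z := by
  funext k
  have h1 := repr_natAdd hA (B (∑ j, z j • b (Fin.natAdd m j))) k
  have h2 : (fun j => b.repr (B (∑ j, z j • b (Fin.natAdd m j))) (Fin.natAdd m j)) =
      mat3 b B z := rfl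
  rw [h2, hAB] at h1
  rw [← h1]
  simp only [map_sum, map_smul, b.repr_self, Finsupp.coe_finsetSum, Finset.sum_apply,
    Finsupp.smul_apply, smul_eq_mul]
  rw [Finset.sum_eq_single k]
  · simp
  · intro j _ hj
    rw [Finsupp.single_apply, if_neg]
    · simp
    · intro h
      exact hj (Fin.natAdd_injective 3 m h)
  · simp

/-- the symmetry of the last three coordinates alone preserves the body -/
theorem lift3_mem {K : Set V}
    (rK : ∀ i : Fin m, ∀ x ∈ K, x - (2 * b.repr x (Fin.castAdd 3 i)) • b (Fin.castAdd 3 i) ∈ K)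
    {A : V →ₗ[ℝ] V} (aK : ∀ x ∈ K, A x ∈ K) {c : Fin m → ℝ} (hc : ∀ i, c i = 1 ∨ c i = -1)
    (hA : ∀ i, A (b (Fin.castAdd 3 i)) = c i • b (Fin.castAdd 3 i))
    (hF : ∀ j i, b.repr (A (b (Fin.natAdd m j))) (Fin.castAdd 3 i) = 0) {x : V} (hx : x ∈ K) :
    ∃ z ∈ K, (b.repr z : Fin (m + 3) → ℝ) = lift3 m (mat3 b A) (b.repr x) := by
  classical
  have flip : ∀ s : Finset (Fin m), ∀ y ∈ K, ∃ z ∈ K,
      (∀ i, b.repr z (Fin.castAdd 3 i) =
        if i ∈ s then -b.repr y (Fin.castAdd 3 i) else b.repr y (Fin.castAdd 3 i)) ∧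
      ∀ k, b.repr z (Fin.natAdd m k) = b.repr y (Fin.natAdd m k) := by
    intro s
    induction s using Finset.induction_on with
    | empty => intro y hy; exact ⟨y, hy, by simp, by simp⟩
    | insert a s ha ih =>
      intro y hy
      obtain ⟨z, hz, h1, h2⟩ := ih y hy
      refine ⟨_, rK a z hz, ?_, ?_⟩
      · intro i
        simp only [map_sub, map_smul, Finsupp.sub_apply, Finsupp.smul_apply, b.repr_self,
          smul_eq_mul, Finsupp.single_apply]
        by_cases hi : i = a
        · subst hi
          rw [if_pos rfl, if_pos (Finset.mem_insert_self _ _), h1, if_neg ha]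
          ring
        · rw [if_neg, h1]
          · simp [Finset.mem_insert, hi]
          · intro h
            exact hi (Fin.castAdd_injective m 3 h).symm
      · intro k
        simp only [map_sub, map_smul, Finsupp.sub_apply, Finsupp.smul_apply, b.repr_self,
          smul_eq_mul, Finsupp.single_apply]
        rw [if_neg, h2]
        · simp
        · intro h
          have := congrArg Fin.val h
          simp at this
          omega
  obtain ⟨z, hz, h1, h2⟩ := flip (Finset.univ.filter fun i => c i = -1) (A x) (aK x hx)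
  refine ⟨z, hz, ?_⟩
  funext k
  refine Fin.addCases (fun i => ?_) (fun j => ?_) k
  · rw [h1, lift3_castAdd, repr_castAdd hA hF]
    rcases hc i with h | h
    · rw [if_neg, h, one_mul]
      simp [h]
      norm_num
    · rw [if_pos, h]
      · ring
      · simp [h]
  · rw [h2, lift3_natAdd, repr_natAdd hA]

end coords

end Vale.Agent.P227.Gen
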