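import Vale.Agent.P227.T1.Refl

/-!
# P227 / Gen : reflections plus a symmetry of the last three coordinates
-/

open MeasureTheory Set

namespace Vale.Agent.P227.Gen

open Vale.Agent.P227.T1

/-- `f` acting on the last three coordinates. -/
def lift3 : (m : ℕ) → ((Fin 3 → ℝ) → (Fin 3 → ℝ)) → (Fin (m + 3) → ℝ) → (Fin (m + 3) → ℝ)
  | 0, f, x => f x
  | m + 1, f, x => Fin.cons (x 0) (lift3 m f (Fin.tail x))

/-- Induction over the reflections (compare `logBM_refl`). -/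
theorem refl3 {l : ℝ} (hl0 : 0 < l) (hl1 : l < 1) {ι : Type*}
    (R : ι → (Fin 3 → ℝ) → (Fin 3 → ℝ))
    (base : ∀ K L : Set (Fin 3 → ℝ), Convex ℝ K → Convex ℝ L → IsCompact K → IsCompact L →
      (∀ x ∈ K, -x ∈ K) → (∀ x ∈ L, -x ∈ L) →
      (∀ i, ∀ x ∈ K, R i x ∈ K) → (∀ i, ∀ x ∈ L, R i x ∈ L) →
      volume K ^ (1 - l) * volume L ^ l ≤
        volume (wf fun u => hs K u ^ (1 - l) * hs L u ^ l)) (m : ℕ) :
    ∀ K L : Set (Fin (m + 3) → ℝ), Convex ℝ K → Convex ℝ L → IsCompact K → IsCompact L →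
      (∀ x ∈ K, -x ∈ K) → (∀ x ∈ L, -x ∈ L) →
      (∀ i : Fin (m + 3), i.val < m → ∀ x ∈ K, Function.update x i (-x i) ∈ K) →
      (∀ i : Fin (m + 3), i.val < m → ∀ x ∈ L, Function.update x i (-x i) ∈ L) →
      (∀ i, ∀ x ∈ K, lift3 m (R i) x ∈ K) → (∀ i, ∀ x ∈ L, lift3 m (R i) x ∈ L) →
      volume K ^ (1 - l) * volume L ^ l ≤
        volume (wf fun u => hs K u ^ (1 - l) * hs L u ^ l) := sorry

end Vale.Agent.P227.Gen
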