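import Vale.Agent.P227.Final.Bridge
import Vale.Agent.P227.C2.Main
import Vale.Agent.P227.Gen.Refl3
import Vale.Agent.P227.Gen.MainB

/-!
# P227 / Gen : `n - 3` commuting reflections and one further linear symmetry
-/

open MeasureTheory Set
open scoped ENNReal Matrix

namespace Vale.Agent.P227.Gen

open Vale.Agent.P227.Final

section action

variable {m : ℕ} {v w : Fin m → E (m + 3)}

/-- a linear map commuting with the reflections and preserving a body -/
theorem action_facts (hvw : ∀ i j, ip (v i) (w j) = if i = j then (1 : ℝ) else 0)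
    {K : Set (E (m + 3))} (hK : SymConvexBody K) (A B : E (m + 3) →ₗ[ℝ] E (m + 3))
    (hBA : ∀ x, B (A x) = x) (aK : ∀ x ∈ K, A x ∈ K) (bK : ∀ x ∈ K, B x ∈ K)
    (comm : ∀ i x, A (reflection (v i) (w i) x) = reflection (v i) (w i) (A x)) :
    (∀ i, ∃ c : ℝ, (c = 1 ∨ c = -1) ∧ A (v i) = c • v i) ∧
      ∀ x, (∀ i, ip x (w i) = 0) → ∀ i, ip (A x) (w i) = 0 := by
  have hv : ∀ i, v i ≠ 0 := by
    intro i h
    have := hvw i i
    rw [if_pos rfl, h] at this
    simp [ip] at this
  have h0 : (0 : E (m + 3)) ∈ interior K := by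
    obtain ⟨x, hx⟩ := hK.nonempty_interior
    have hx' : -x ∈ K := hK.symm x (interior_subset hx)
    have h := hK.convex.combo_interior_self_mem_interior hx hx' (a := 1 / 2) (b := 1 / 2)
      (by norm_num) (by norm_num) (by norm_num)
    simpa using h
  constructor
  · intro i
    have h1 := comm i (v i)
    unfold reflection at h1
    rw [hvw, if_pos rfl, map_sub, map_smul] at h1
    have h2 : A (v i) = ip (A (v i)) (w i) • v i := by
      have h3 : (2 : ℝ) • A (v i) = (2 : ℝ) • (ip (A (v i)) (w i) • v i) := by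
        have h4 := sub_right_inj.1 h1
        rw [mul_one] at h4
        rw [h4, smul_smul]
      have h5 := congrArg (fun z => (1 / 2 : ℝ) • z) h3
      simp only [smul_smul] at h5
      rw [← mul_assoc] at h5
      norm_num at h5
      exact h5
    refine ⟨_, ?_, h2⟩
    set c := ip (A (v i)) (w i) with hc
    have hle := abs_eigen_le hK.isCompact h0 A aK (hv i) h2
    have h6 : v i = c • B (v i) := by
      rw [← map_smul, ← h2, hBA]
    have hc0 : c ≠ 0 := by
      intro h
      rw [h, zero_smul] at h6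
      exact hv i h6
    have h7 : B (v i) = c⁻¹ • v i := by
      conv_rhs => rw [h6]
      rw [smul_smul, inv_mul_cancel₀ hc0, one_smul]
    have hge := abs_eigen_le hK.isCompact h0 B bK (hv i) h7
    rw [abs_inv] at hge
    have h8 : 0 < |c| := abs_pos.2 hc0
    have h9 : 1 ≤ |c| := by
      rw [inv_le_one₀ h8] at hge
      exact hge
    have h10 : |c| = 1 := le_antisymm hle h9
    exact (abs_eq (by norm_num)).1 h10
  · intro x hx i
    have h1 := comm i x
    unfold reflection at h1
    rw [hx i, mul_zero, zero_smul, sub_zero] at h1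
    have h2 : (2 * ip (A x) (w i)) • v i = 0 := by
      have := sub_eq_self.1 h1.symm
      exact this
    rcases smul_eq_zero.1 h2 with h | h
    · linarith
    · exact absurd h (hv i)

end action

/-- log-Brunn-Minkowski in `R^(m+3)` for two bodies sharing `m` commuting reflections and a linear
symmetry `A` commuting with them and different from `±1` on their common fixed space. -/
theorem main_gen (m : ℕ) (v w : Fin m → E (m + 3)) (A : E (m + 3) →ₗ[ℝ] E (m + 3))
    (K L : Set (E (m + 3))) (hK : SymConvexBody K) (hL : SymConvexBody L)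
    (iK : Invariant v w K) (iL : Invariant v w L) (aK : A '' K = K) (aL : A '' L = L)
    (comm : ∀ i x, A (reflection (v i) (w i) x) = reflection (v i) (w i) (A x))
    (h1 : ∃ x, (∀ i, ip x (w i) = 0) ∧ A x ≠ x) (h2 : ∃ x, (∀ i, ip x (w i) = 0) ∧ A x ≠ -x)
    (t : ℝ) (ht0 : 0 ≤ t) (ht1 : t ≤ 1) :
    evol K ^ (1 - t) * evol L ^ t ≤ evol (logComb t K L) := by
  have hfin : volume (Vale.Agent.P227.logComb t K L) ≠ ⊤ :=
    (Vale.Agent.P227.logComb_facts (by omega) hK hL ht0 ht1).1.isCompact.measure_lt_top.ne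
  suffices h : volume K ^ (1 - t) * volume L ^ t ≤ volume (Vale.Agent.P227.logComb t K L) by
    have h2 := ENNReal.toReal_mono hfin h
    rw [ENNReal.toReal_mul, ← ENNReal.toReal_rpow, ← ENNReal.toReal_rpow] at h2
    exact h2
  have hbdd : ∀ (S : Set (E (m + 3))), IsCompact S → ∀ u,
      BddAbove ((fun x => inner ℝ x u) '' S) := by
    intro S hS u
    exact (hS.image (by fun_prop)).bddAbove
  rcases ht0.eq_or_lt with h0 | h0
  · subst h0
    rw [sub_zero, ENNReal.rpow_one, ENNReal.rpow_zero, mul_one]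
    apply measure_mono
    intro x hx u _
    simp only [sub_zero, Real.rpow_one, Real.rpow_zero, mul_one]
    exact le_csSup (hbdd K hK.isCompact u) ⟨x, hx, rfl⟩
  rcases ht1.eq_or_lt with h3 | h3
  · subst h3
    rw [sub_self, ENNReal.rpow_one, ENNReal.rpow_zero, one_mul]
    apply measure_mono
    intro x hx u _
    simp only [sub_self, Real.rpow_one, Real.rpow_zero, one_mul]
    exact le_csSup (hbdd L hL.isCompact u) ⟨x, hx, rfl⟩
  -- the inverse of `A`
  have hrange : LinearMap.range A = ⊤ := by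
    apply Submodule.eq_top_of_nonempty_interior'
    refine hK.nonempty_interior.mono (interior_mono ?_)
    intro x hx
    rw [← aK] at hx
    obtain ⟨y, _, hy⟩ := hx
    exact ⟨y, hy⟩
  have hsurj : Function.Surjective A := LinearMap.range_eq_top.1 hrange
  have hinj : Function.Injective A := LinearMap.injective_iff_surjective.2 hsurj
  obtain ⟨B, hAB, hBA⟩ : ∃ B : E (m + 3) →ₗ[ℝ] E (m + 3), (∀ x, A (B x) = x) ∧
      ∀ x, B (A x) = x := by
    let e := LinearEquiv.ofBijective A ⟨hinj, hsurj⟩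
    exact ⟨e.symm, fun x => e.apply_symm_apply x, fun x => e.symm_apply_apply x⟩
  have mA : ∀ S : Set (E (m + 3)), A '' S = S → ∀ x ∈ S, A x ∈ S := by
    intro S hS x hx
    rw [← hS]
    exact ⟨x, hx, rfl⟩
  have mB : ∀ S : Set (E (m + 3)), A '' S = S → ∀ x ∈ S, B x ∈ S := by
    intro S hS x hx
    rw [← hS] at hx
    obtain ⟨y, hy, rfl⟩ := hx
    rwa [hBA]
  have commB : ∀ i x, B (reflection (v i) (w i) x) = reflection (v i) (w i) (B x) := by
    intro i x
    apply hinj
    rw [hAB, comm, hAB]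
  obtain ⟨cA, fA⟩ := action_facts iK.biorth hK A B hBA (mA K aK) (mB K aK) comm
  obtain ⟨cB, fB⟩ := action_facts iK.biorth hK B A hAB (mB K aK) (mA K aK) commB
  choose c hc1 hcA using cA
  choose d hd1 hdB using cB
  obtain ⟨b, hb, hr⟩ := exists_basis3 v w iK.biorth
  have hAb : ∀ i, A (b (Fin.castAdd 3 i)) = c i • b (Fin.castAdd 3 i) := by
    intro i
    rw [hb, hcA]
  have hBb : ∀ i, B (b (Fin.castAdd 3 i)) = d i • b (Fin.castAdd 3 i) := by
    intro i
    rw [hb, hdB]
  have hbF : ∀ j i, ip (b (Fin.natAdd m j)) (w i) = 0 := by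
    intro j i
    have : b.repr (b (Fin.natAdd m j)) (Fin.castAdd 3 i) = ip (b (Fin.natAdd m j)) (w i) := hr i _
    rw [← this, b.repr_self, Finsupp.single_apply, if_neg]
    intro h
    have := congrArg Fin.val h
    simp at this
    omega
  have hAF : ∀ j i, b.repr (A (b (Fin.natAdd m j))) (Fin.castAdd 3 i) = 0 := by
    intro j i
    rw [hr]
    exact fA _ (hbF j) i
  have hBF : ∀ j i, b.repr (B (b (Fin.natAdd m j))) (Fin.castAdd 3 i) = 0 := by
    intro j i
    rw [hr]
    exact fB _ (hbF j) i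
  set T : E (m + 3) ≃L[ℝ] (Fin (m + 3) → ℝ) := b.equivFun.toContinuousLinearEquiv with hT
  have hTr : ∀ x, T x = b.repr x := fun x => rfl
  obtain ⟨k, hk0, hk1, hk⟩ := T1.exists_scale T
  -- the matrix is not `±1`
  have hM1 : mat3 b A ≠ LinearMap.id := by
    intro h
    obtain ⟨x, hx, hxA⟩ := h1
    apply hxA
    apply b.repr.injective
    apply Finsupp.ext
    intro j
    refine Fin.addCases (fun i => ?_) (fun j => ?_) j
    · rw [hr, hr]
      exact (fA x hx i).trans (hx i).symm
    · rw [repr_natAdd hAb, h]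
      rfl
  have hM2 : mat3 b A ≠ -LinearMap.id := by
    intro h
    obtain ⟨x, hx, hxA⟩ := h2
    apply hxA
    apply b.repr.injective
    apply Finsupp.ext
    intro j
    rw [map_neg, Finsupp.neg_apply]
    refine Fin.addCases (fun i => ?_) (fun j => ?_) j
    · rw [hr, hr]
      have e1 : inner ℝ (A x) (w i) = (0 : ℝ) := fA x hx i
      have e2 : inner ℝ x (w i) = (0 : ℝ) := hx i
      rw [e1, e2, neg_zero]
    · rw [repr_natAdd hAb, h]
      rfl
  -- dual coordinates
  set u' : E (m + 3) → (Fin (m + 3) → ℝ) := fun u i => inner ℝ (b i) u with hu'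
  have hdot : ∀ x u, (T x) ⬝ᵥ (u' u) = inner ℝ x u := by
    intro x u
    have : x = ∑ i, b.repr x i • b i := (b.sum_repr x).symm
    conv_rhs => rw [this, sum_inner]
    simp only [inner_smul_left, dotProduct, hTr, hu']
    rfl
  have hsup : ∀ (S : Set (E (m + 3))) u,
      T1.hs (T '' S) (u' u) = Vale.Agent.P227.supportFn S u := by
    intro S u
    unfold T1.hs Vale.Agent.P227.supportFn
    rw [image_image]
    congr 1
    apply image_congr
    intro x _
    exact hdot x u
  have hconv : ∀ S, Convex ℝ S → Convex ℝ (T '' S) := fun S hS =>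
    hS.is_linear_image (T : E (m + 3) →ₗ[ℝ] (Fin (m + 3) → ℝ)).isLinear
  have hcomp : ∀ S, IsCompact S → IsCompact (T '' S) := fun S hS => hS.image T.continuous
  have hsym : ∀ S : Set (E (m + 3)), (∀ x ∈ S, -x ∈ S) → ∀ y ∈ T '' S, -y ∈ T '' S := by
    rintro S hS _ ⟨x, hx, rfl⟩
    exact ⟨-x, hS x hx, by simp⟩
  have hrefl' : ∀ S : Set (E (m + 3)), (∀ i, ∀ x ∈ S, reflection (v i) (w i) x ∈ S) →
      ∀ i : Fin m, ∀ x ∈ S, x - (2 * b.repr x (Fin.castAdd 3 i)) • b (Fin.castAdd 3 i) ∈ S := by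
    intro S hS i x hx
    rw [hb, hr]
    exact hS i x hx
  have hrefl : ∀ S : Set (E (m + 3)), (∀ i, ∀ x ∈ S, reflection (v i) (w i) x ∈ S) →
      ∀ i : Fin (m + 3), i.val < m → ∀ y ∈ T '' S, Function.update y i (-y i) ∈ T '' S := by
    rintro S hS i hi _ ⟨x, hx, rfl⟩
    have e : (Fin.castAdd 3 (⟨i, hi⟩ : Fin m) : Fin (m + 3)) = i := Fin.ext rfl
    have h5 := hrefl' S hS ⟨i, hi⟩ x hx
    rw [e] at h5
    refine ⟨_, h5, ?_⟩
    rw [map_sub, map_smul]
    funext j
    have hb : T (b i) = Pi.single i 1 := by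
      funext k
      rw [hTr, b.repr_self, Finsupp.single_eq_pi_single]
    rw [hb]
    by_cases hj : j = i
    · subst hj
      simp [hTr]
      ring
    · simp [Function.update_of_ne hj, Pi.single_eq_of_ne hj]
  set R : Bool → (Fin 3 → ℝ) → (Fin 3 → ℝ) := fun s => if s then mat3 b A else mat3 b B with hR
  have hlift : ∀ S : Set (E (m + 3)), (∀ i, ∀ x ∈ S, reflection (v i) (w i) x ∈ S) →
      A '' S = S → ∀ s, ∀ y ∈ T '' S, lift3 m (R s) y ∈ T '' S := by
    rintro S hS aS s _ ⟨x, hx, rfl⟩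
    cases s with
    | true =>
      obtain ⟨z, hz, hzx⟩ := lift3_mem (hrefl' S hS) (mA S aS) hc1 hAb hAF hx
      exact ⟨z, hz, hzx⟩
    | false =>
      obtain ⟨z, hz, hzx⟩ := lift3_mem (hrefl' S hS) (mB S aS) hd1 hBb hBF hx
      exact ⟨z, hz, hzx⟩
  have key := refl3 h0 h3 R (fun K' L' cK' cL' hK' hL' sK' sL' rK' rL' =>
    base3 h0 h3 (mat3 b A) (mat3 b B) (mat3_comp hAB hAb) hM1 hM2 K' L' cK' cL' hK' hL' sK' sL'
      (rK' true) (rL' true) (rK' false) (rL' false)) m (T '' K) (T '' L) (hconv K hK.convex)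
    (hconv L hL.convex) (hcomp K hK.isCompact) (hcomp L hL.isCompact) (hsym K hK.symm)
    (hsym L hL.symm) (hrefl K iK.mem) (hrefl L iL.mem) (hlift K iK.mem aK) (hlift L iL.mem aL)
  have hincl : (T1.wf fun u => T1.hs (T '' K) u ^ (1 - t) * T1.hs (T '' L) u ^ t) ⊆
      T '' (Vale.Agent.P227.logComb t K L) := by
    intro y hy
    refine ⟨T.symm y, ?_, by simp⟩
    intro u _
    have := hy (u' u)
    rw [← hdot, T.apply_symm_apply]
    simpa only [hsup] using this
  have key2 := le_trans key (measure_mono hincl)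
  rw [hk, hk, hk, ENNReal.mul_rpow_of_nonneg _ _ (by linarith), ENNReal.mul_rpow_of_nonneg _ _ h0.le,
    mul_mul_mul_comm, ← ENNReal.rpow_add _ _ hk0 hk1] at key2
  simp only [sub_add_cancel, ENNReal.rpow_one] at key2
  exact (ENNReal.mul_le_mul_iff_right hk0 hk1).1 key2

/-- `main_gen` with the definitions of `Vale.Agent.P227.Final` throughout. -/
theorem main_gen_final (m : ℕ) (v w : Fin m → E (m + 3)) (A : E (m + 3) →ₗ[ℝ] E (m + 3))
    (K L : Set (E (m + 3))) (hK : Final.SymConvexBody K) (hL : Final.SymConvexBody L)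
    (iK : Final.Invariant v w K) (iL : Final.Invariant v w L) (aK : A '' K = K) (aL : A '' L = L)
    (comm : ∀ i x, A (Final.reflection (v i) (w i) x) = Final.reflection (v i) (w i) (A x))
    (h1 : ∃ x, (∀ i, Final.ip x (w i) = 0) ∧ A x ≠ x)
    (h2 : ∃ x, (∀ i, Final.ip x (w i) = 0) ∧ A x ≠ -x)
    (t : ℝ) (ht0 : 0 ≤ t) (ht1 : t ≤ 1) :
    Final.evol K ^ (1 - t) * Final.evol L ^ t ≤ Final.evol (Final.logComb t K L) :=
  main_gen m v w A K L (scb hK) (scb hL) iK iL aK aL comm h1 h2 t ht0 ht1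

end Vale.Agent.P227.Gen
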