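import Vale.Agent.P227.C2.Main
import Vale.Agent.P227.Gen.Refl3

/-!
# P227 / Gen : tools for the reduction to dimension three
-/

open MeasureTheory Set
open scoped ENNReal Matrix

namespace Vale.Agent.P227.Gen

open Vale.Agent.P227.T1

theorem interior_of_volume {n : ℕ} {K : Set (Fin n → ℝ)} (cK : Convex ℝ K) (hK : IsCompact K)
    (vK : volume K ≠ 0) : (interior K).Nonempty := by
  by_contra h
  rw [not_nonempty_iff_eq_empty] at h
  apply vK
  have h1 := cK.addHaar_frontier volume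
  have h2 : frontier K = K := by
    rw [frontier, h, sdiff_empty, hK.isClosed.closure_eq]
  rwa [h2] at h1

/-- the base case: a common linear symmetry in dimension three -/
theorem base3 {l : ℝ} (hl0 : 0 < l) (hl1 : l < 1) (R R' : (Fin 3 → ℝ) →ₗ[ℝ] (Fin 3 → ℝ))
    (hRR : ∀ x, R (R' x) = x) (h1 : R ≠ LinearMap.id) (h2 : R ≠ -LinearMap.id)
    (K L : Set (Fin 3 → ℝ)) (cK : Convex ℝ K) (cL : Convex ℝ L) (hK : IsCompact K)
    (hL : IsCompact L) (sK : ∀ x ∈ K, -x ∈ K) (sL : ∀ x ∈ L, -x ∈ L)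
    (rK : ∀ x ∈ K, R x ∈ K) (rL : ∀ x ∈ L, R x ∈ L) (rK' : ∀ x ∈ K, R' x ∈ K)
    (rL' : ∀ x ∈ L, R' x ∈ L) :
    volume K ^ (1 - l) * volume L ^ l ≤
      volume (wf fun u => hs K u ^ (1 - l) * hs L u ^ l) := by
  by_cases vK : volume K = 0
  · rw [vK, ENNReal.zero_rpow_of_pos (by linarith), zero_mul]
    exact zero_le
  by_cases vL : volume L = 0
  · rw [vL, ENNReal.zero_rpow_of_pos hl0, mul_zero]
    exact zero_le
  set T : EuclideanSpace ℝ (Fin 3) ≃L[ℝ] (Fin 3 → ℝ) := EuclideanSpace.equiv (Fin 3) ℝ with hT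
  obtain ⟨c, hc0, hc1, hc⟩ := exists_scale T
  have hdot : ∀ x u, (T x) ⬝ᵥ (T u) = inner ℝ x u := by
    intro x u
    simp [hT, PiLp.inner_apply, dotProduct, mul_comm]
  have hTT : ∀ S : Set (Fin 3 → ℝ), T '' (T ⁻¹' S) = S := fun S =>
    image_preimage_eq S T.surjective
  have body : ∀ S : Set (Fin 3 → ℝ), Convex ℝ S → IsCompact S → (∀ x ∈ S, -x ∈ S) →
      volume S ≠ 0 → SymConvexBody (T ⁻¹' S) := by
    intro S cS hS sS vS
    refine ⟨?_, ?_, ?_, ?_⟩
    · exact cS.is_linear_preimage (T : EuclideanSpace ℝ (Fin 3) →ₗ[ℝ] (Fin 3 → ℝ)).isLinear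
    · exact T.toHomeomorph.isCompact_preimage.2 hS
    · obtain ⟨y, hy⟩ := interior_of_volume cS hS vS
      refine ⟨T.symm y, ?_⟩
      have h3 : T.toHomeomorph ⁻¹' interior S = interior (T.toHomeomorph ⁻¹' S) :=
        T.toHomeomorph.preimage_interior S
      have h4 : T.symm y ∈ T.toHomeomorph ⁻¹' interior S := by
        show T (T.symm y) ∈ interior S
        rwa [T.apply_symm_apply]
      rw [h3] at h4
      exact h4
    · intro x hx
      show T (-x) ∈ S
      rw [map_neg]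
      exact sS _ hx
  have hsup : ∀ (S : Set (Fin 3 → ℝ)) u, supportFn (T ⁻¹' S) u = hs S (T u) := by
    intro S u
    unfold hs supportFn
    conv_rhs => rw [← hTT S, image_image]
    congr 1
    apply image_congr
    intro x _
    exact (hdot x u).symm
  set A : EuclideanSpace ℝ (Fin 3) →ₗ[ℝ] EuclideanSpace ℝ (Fin 3) :=
    (T.symm : (Fin 3 → ℝ) →ₗ[ℝ] EuclideanSpace ℝ (Fin 3)) ∘ₗ R ∘ₗ
      (T : EuclideanSpace ℝ (Fin 3) →ₗ[ℝ] (Fin 3 → ℝ)) with hA
  have hAx : ∀ x, T (A x) = R (T x) := by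
    intro x
    simp [hA]
  have hA1 : A ≠ LinearMap.id := by
    intro h
    apply h1
    ext1 i
    ext1
    have h3 := hAx (T.symm (Pi.single i 1))
    rw [h, LinearMap.id_apply, T.apply_symm_apply] at h3
    simp [← h3]
  have hA2 : A ≠ -LinearMap.id := by
    intro h
    apply h2
    ext1 i
    ext1
    have h3 := hAx (T.symm (Pi.single i 1))
    rw [h, LinearMap.neg_apply, LinearMap.id_apply, map_neg, T.apply_symm_apply] at h3
    simp [← h3]
  have himg : ∀ S : Set (Fin 3 → ℝ), (∀ x ∈ S, R x ∈ S) → (∀ x ∈ S, R' x ∈ S) →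
      A '' (T ⁻¹' S) = T ⁻¹' S := by
    intro S r r'
    apply Subset.antisymm
    · rintro _ ⟨x, hx, rfl⟩
      show T (A x) ∈ S
      rw [hAx]
      exact r _ hx
    · intro x hx
      refine ⟨T.symm (R' (T x)), ?_, ?_⟩
      · show T (T.symm (R' (T x))) ∈ S
        rw [T.apply_symm_apply]
        exact r' _ hx
      · apply T.injective
        rw [hAx, T.apply_symm_apply, hRR]
  have key := C2.sym_main (body K cK hK sK vK) (body L cL hL sL vL) A hA1 hA2 (himg K rK rK')
    (himg L rL rL') hl0.le hl1.le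
  have nK : K.Nonempty := by
    rw [nonempty_iff_ne_empty]; rintro rfl; simp at vK
  have nL : L.Nonempty := by
    rw [nonempty_iff_ne_empty]; rintro rfl; simp at vL
  have hincl : T '' (logComb l (T ⁻¹' K) (T ⁻¹' L)) ⊆
      wf fun u => hs K u ^ (1 - l) * hs L u ^ l := by
    rintro _ ⟨x, hx, rfl⟩ u
    by_cases hu : u = 0
    · subst hu
      beta_reduce
      rw [dotProduct_zero, hs_zero hK nK, hs_zero hL nL]
      positivity
    · have hpos : 0 < ‖T.symm u‖ := by
        rw [norm_pos_iff]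
        simpa using hu
      have h3 := hx (‖T.symm u‖⁻¹ • T.symm u) (by
        rw [norm_smul, norm_inv, norm_norm, inv_mul_cancel₀ hpos.ne'])
      beta_reduce at h3 ⊢
      rw [hsup, hsup, map_smul, T.apply_symm_apply, hs_smul hK nK (inv_nonneg.2 hpos.le),
        hs_smul hL nL (inv_nonneg.2 hpos.le), inner_smul_right, ← hdot, T.apply_symm_apply,
        Real.mul_rpow (inv_nonneg.2 hpos.le) (hs_nonneg hK nK sK u),
        Real.mul_rpow (inv_nonneg.2 hpos.le) (hs_nonneg hL nL sL u), mul_mul_mul_comm,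
        ← Real.rpow_add (inv_pos.2 hpos)] at h3
      simp only [sub_add_cancel, Real.rpow_one] at h3
      exact le_of_mul_le_mul_left h3 (inv_pos.2 hpos)
  refine le_trans ?_ (measure_mono hincl)
  rw [hc]
  conv_lhs => rw [← hTT K, ← hTT L]
  rw [hc, hc, ENNReal.mul_rpow_of_nonneg _ _ (by linarith), ENNReal.mul_rpow_of_nonneg _ _ hl0.le,
    mul_mul_mul_comm, ← ENNReal.rpow_add _ _ hc0 hc1]
  simp only [sub_add_cancel, ENNReal.rpow_one]
  exact mul_le_mul_right key c

theorem lift3_castAdd (m : ℕ) (f : (Fin 3 → ℝ) → (Fin 3 → ℝ)) (y : Fin (m + 3) → ℝ) (i : Fin m) :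
    lift3 m f y (Fin.castAdd 3 i) = y (Fin.castAdd 3 i) := by
  induction m with
  | zero => exact i.elim0
  | succ m ih =>
    refine Fin.cases ?_ (fun j => ?_) i
    · rfl
    · have h := ih (Fin.tail y) j
      exact h

theorem lift3_natAdd (m : ℕ) (f : (Fin 3 → ℝ) → (Fin 3 → ℝ)) (y : Fin (m + 3) → ℝ) (k : Fin 3) :
    lift3 m f y (Fin.natAdd m k) = f (fun j => y (Fin.natAdd m j)) k := by
  induction m with
  | zero =>
    show f y (Fin.natAdd 0 k) = _
    simp
  | succ m ih =>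
    have h := ih (Fin.tail y)
    have e : ∀ j : Fin 3, (Fin.natAdd (m + 1) j : Fin (m + 1 + 3)) =
        (Fin.natAdd m j : Fin (m + 3)).succ := by
      intro j
      apply Fin.ext
      simp
      omega
    rw [e k]
    show lift3 m f (Fin.tail y) (Fin.natAdd m k) = _
    rw [h]
    congr 1
    funext j
    rw [e j]
    rfl

end Vale.Agent.P227.Gen
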